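import Vale.Agent.P057.H203.Region

/-!
# P057 : a larger planar region for three term progressions modulo one

The region has area `52/171` (up to `η`), and the weight `wt` is strictly convex along every
progression modulo one which stays inside the region.  The sections over `X` are contained in the
asymmetric intervals `[-(4/9) X, (11/18) X]`; the upper part of the region lives on pairs of
intervals (under `Y ↦ 2 Y`) which are aligned on the right hand side.
-/

set_option linter.all false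

open Finset

namespace Vale.Agent.P057.R2.H777

open Vale.Agent.P057.H203 (ww ww_spec int_three int_zero case_pos case_far case_near ww_pos ww_neg)

/-- the region -/
def Reg (η X Y : ℝ) : Prop :=
  0 ≤ X ∧ X < 1 ∧ -(1 / 2) < Y ∧ Y < 1 / 2 ∧ -(8 * X) ≤ 18 * Y ∧ 18 * Y ≤ 11 * X ∧
  (1 / 2 ≤ X → (11 * (2 * X - 1) < 36 * Y ∨ 36 * Y < -(8 * (2 * X - 1))) ∧
    11 * (2 * X - 1) - 18 < 36 * Y ∧ 36 * Y < 18 - 8 * (2 * X - 1)) ∧
  ((X < 21 / 38 ∧ 11 * X - 9 < 18 * Y) ∨ (21 / 38 + η < X ∧ 36 * ww Y ≤ 25 + 6 * X - 36 * η))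

/-- the second part of the weight -/
noncomputable def f2 (X Y : ℝ) : ℝ := if X < 21 / 38 then Y ^ 2 else (ww Y) ^ 2

/-- the weight -/
noncomputable def wt (η X Y : ℝ) : ℝ := 8 / η ^ 2 * X ^ 2 + f2 X Y

theorem f2_nonneg (X Y : ℝ) : 0 ≤ f2 X Y := by
  unfold f2
  split_ifs <;> positivity

theorem f2_le {X Y : ℝ} (h1 : -(1 / 2) < Y) (h2 : Y < 1 / 2) : f2 X Y ≤ 1 := by
  obtain ⟨s, _, _, h3, h4⟩ := ww_spec h1 h2
  unfold f2
  split_ifs
  · nlinarith
  · nlinarith

/-- the case `k = -1` is impossible -/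
theorem case_neg {η X1 X2 X3 Y1 Y2 Y3 : ℝ} (h1 : Reg η X1 Y1) (h2 : Reg η X2 Y2)
    (h3 : Reg η X3 Y3) (hX : X1 - 2 * X2 + X3 = -1) {l : ℤ} (hl : Y1 - 2 * Y2 + Y3 = l) :
    False := by
  obtain ⟨a1, a2, a3, a4, a5, a6, a7, a8⟩ := h1
  obtain ⟨b1, b2, b3, b4, b5, b6, b7, b8⟩ := h2
  obtain ⟨c1, c2, c3, c4, c5, c6, c7, c8⟩ := h3
  obtain ⟨d1, d2, d3⟩ := b7 (by linarith)
  rcases int_three hl (by linarith) (by linarith) with h | h | h
  · rw [h] at hl
    push_cast at hl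
    linarith
  · rw [h] at hl
    push_cast at hl
    rcases d1 with d1 | d1 <;> linarith
  · rw [h] at hl
    push_cast at hl
    linarith

theorem zoneA {η X1 X2 X3 Y1 Y2 Y3 : ℝ} (h1 : Reg η X1 Y1) (h2 : Reg η X2 Y2)
    (h3 : Reg η X3 Y3) (hη : 0 < η) (z1 : X1 < 21 / 38) (z3 : X3 < 21 / 38)
    (hX : X1 - 2 * X2 + X3 = 0) {l : ℤ} (hl : Y1 - 2 * Y2 + Y3 = l) :
    (Y1 - Y3) ^ 2 / 2 ≤ f2 X1 Y1 - 2 * f2 X2 Y2 + f2 X3 Y3 := by
  have z2 : X2 < 21 / 38 := by linarith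
  obtain ⟨a1, a2, a3, a4, a5, a6, a7, a8⟩ := h1
  obtain ⟨b1, b2, b3, b4, b5, b6, b7, b8⟩ := h2
  obtain ⟨c1, c2, c3, c4, c5, c6, c7, c8⟩ := h3
  have a9 : 11 * X1 - 9 < 18 * Y1 := by
    rcases a8 with a8 | a8
    · exact a8.2
    · linarith [a8.1]
  have b9 : 11 * X2 - 9 < 18 * Y2 := by
    rcases b8 with b8 | b8
    · exact b8.2
    · linarith [b8.1]
  have c9 : 11 * X3 - 9 < 18 * Y3 := by
    rcases c8 with c8 | c8
    · exact c8.2
    · linarith [c8.1]
  have hl0 := int_zero hl (by linarith) (by linarith)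
  rw [hl0] at hl
  push_cast at hl
  unfold f2
  rw [if_pos z1, if_pos z2, if_pos z3]
  have : Y2 = (Y1 + Y3) / 2 := by linarith
  rw [this]
  apply le_of_eq
  ring

theorem zoneB {η X1 X2 X3 Y1 Y2 Y3 : ℝ} (h1 : Reg η X1 Y1) (h2 : Reg η X2 Y2)
    (h3 : Reg η X3 Y3) (hη : 0 < η) (z1 : 21 / 38 + η < X1) (z3 : 21 / 38 + η < X3)
    (hX : X1 - 2 * X2 + X3 = 0) {l : ℤ} (hl : Y1 - 2 * Y2 + Y3 = l) :
    (Y1 - Y3) ^ 2 / 2 ≤ f2 X1 Y1 - 2 * f2 X2 Y2 + f2 X3 Y3 ∨
    1 / 2 ≤ f2 X1 Y1 - 2 * f2 X2 Y2 + f2 X3 Y3 ∨ (η ≤ X1 - X3 ∨ η ≤ X3 - X1) := by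
  have z2 : 21 / 38 + η < X2 := by linarith
  obtain ⟨a1, a2, a3, a4, a5, a6, a7, a8⟩ := h1
  obtain ⟨b1, b2, b3, b4, b5, b6, b7, b8⟩ := h2
  obtain ⟨c1, c2, c3, c4, c5, c6, c7, c8⟩ := h3
  have b9 : 36 * ww Y2 ≤ 25 + 6 * X2 - 36 * η := by
    rcases b8 with b8 | b8
    · linarith [b8.1]
    · exact b8.2
  obtain ⟨s1, r1, e1, p1, q1⟩ := ww_spec a3 a4
  obtain ⟨s2, r2, e2, p2, q2⟩ := ww_spec b3 b4
  obtain ⟨s3, r3, e3, p3, q3⟩ := ww_spec c3 c4
  have g1 : f2 X1 Y1 = (ww Y1) ^ 2 := by unfold f2; rw [if_neg (by linarith)]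
  have g2 : f2 X2 Y2 = (ww Y2) ^ 2 := by unfold f2; rw [if_neg (by linarith)]
  have g3 : f2 X3 Y3 = (ww Y3) ^ 2 := by unfold f2; rw [if_neg (by linarith)]
  rw [g1, g2, g3]
  have a10 := a7 (by linarith)
  have c10 := c7 (by linarith)
  have hn : 2 * ww Y2 - ww Y1 - ww Y3 = ((2 * s2 - s1 - s3 - 2 * l : ℤ) : ℝ) := by
    push_cast
    rw [e1, e2, e3]
    linarith
  rcases int_three hn (by linarith) (by linarith) with h | h | h
  · -- w2 = avg - 1/2
    right; left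
    rw [h] at hn
    push_cast at hn
    have e4 : ww Y2 = (ww Y1 + ww Y3) / 2 - 1 / 2 := by linarith
    have e7 : (ww Y1) ^ 2 - 2 * (ww Y2) ^ 2 + (ww Y3) ^ 2 =
        (ww Y1 - ww Y3) ^ 2 / 2 + ((ww Y1 + ww Y3) - 1 / 2) := by
      rw [e4]; ring
    rw [e7]
    have e9 : 0 ≤ (ww Y1 - ww Y3) ^ 2 / 2 := by positivity
    have e10 : 1 / 2 ≤ (ww Y1 + ww Y3) - 1 / 2 := by linarith only [e4, p2]
    linarith only [e9, e10]
  · left
    rw [h] at hn
    push_cast at hn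
    have e4 : ww Y2 = (ww Y1 + ww Y3) / 2 := by linarith
    have e5 : s1 = s3 := by
      rcases r1 with ⟨r1, _⟩ | ⟨r1, _⟩ <;> rcases r3 with ⟨r3, _⟩ | ⟨r3, _⟩ <;> omega
    have e6 : ww Y1 - ww Y3 = 2 * (Y1 - Y3) := by
      rw [e1, e3, e5]; ring
    have e7 : (ww Y1) ^ 2 - 2 * (ww Y2) ^ 2 + (ww Y3) ^ 2 =
        (ww Y1 - ww Y3) ^ 2 / 2 := by
      rw [e4]; ring
    rw [e7, e6]
    have e8 : (2 * (Y1 - Y3)) ^ 2 / 2 = (Y1 - Y3) ^ 2 / 2 + 3 / 2 * (Y1 - Y3) ^ 2 := by ring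
    rw [e8]
    have e9 : 0 ≤ 3 / 2 * (Y1 - Y3) ^ 2 := by positivity
    exact le_add_of_nonneg_right e9
  · -- w2 = avg + 1/2
    right; right
    rw [h] at hn
    push_cast at hn
    rcases r1 with ⟨r1, r1'⟩ | ⟨r1, r1'⟩ <;> rcases r3 with ⟨r3, r3'⟩ | ⟨r3, r3'⟩
    · exfalso; omega
    · -- s1 = 0, s3 = 1
      by_contra hcon
      push Not at hcon
      have k1 : 11 * (2 * X1 - 1) < 36 * Y1 := by
        rcases a10.1 with k | k
        · exact k
        · linarith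
      linarith [hcon.1, hcon.2]
    · by_contra hcon
      push Not at hcon
      have k3 : 11 * (2 * X3 - 1) < 36 * Y3 := by
        rcases c10.1 with k | k
        · exact k
        · linarith
      linarith [hcon.1, hcon.2]
    · exfalso; omega

/-- the main property of the region -/
theorem reg_cv {η X1 X2 X3 Y1 Y2 Y3 : ℝ} (hη : 0 < η) (hη1 : η ≤ 1 / 100) (h1 : Reg η X1 Y1)
    (h2 : Reg η X2 Y2) (h3 : Reg η X3 Y3) {k l : ℤ} (hk : X1 - 2 * X2 + X3 = k)
    (hl : Y1 - 2 * Y2 + Y3 = l) :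
    1 / 2 ≤ wt η X1 Y1 - 2 * wt η X2 Y2 + wt η X3 Y3 ∨
    (1 / 2) * ((X1 - X3) ^ 2 + (Y1 - Y3) ^ 2) ≤ wt η X1 Y1 - 2 * wt η X2 Y2 + wt η X3 Y3 := by
  have hM : 8 / η ^ 2 * η ^ 2 = 8 := by field_simp
  have hM5 : 5 ≤ 8 / η ^ 2 := by
    rw [le_div_iff₀ (by positivity)]
    nlinarith
  have u1 := f2_nonneg X1 Y1
  have u3 := f2_nonneg X3 Y3
  have u2 := f2_le (X := X2) h2.2.2.1 h2.2.2.2.1
  unfold wt
  rcases int_three hk (by linarith [h1.1, h2.2.1, h3.1]) (by linarith [h1.2.1, h2.1, h3.2.1])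
    with h | h | h
  · rw [h] at hk
    push_cast at hk
    exact (case_neg h1 h2 h3 hk hl).elim
  · rw [h] at hk
    push_cast at hk
    have w1 : X1 < 21 / 38 ∨ 21 / 38 + η < X1 := by
      rcases h1.2.2.2.2.2.2.2 with g | g
      · exact Or.inl g.1
      · exact Or.inr g.1
    have w3 : X3 < 21 / 38 ∨ 21 / 38 + η < X3 := by
      rcases h3.2.2.2.2.2.2.2 with g | g
      · exact Or.inl g.1
      · exact Or.inr g.1
    rcases w1 with w1 | w1 <;> rcases w3 with w3 | w3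
    · right
      exact case_near (by linarith) hk (zoneA h1 h2 h3 hη w1 w3 hk hl)
    · left
      exact case_far hM (by linarith) hη u1 u3 u2 hk (Or.inr (by linarith))
    · left
      exact case_far hM (by linarith) hη u1 u3 u2 hk (Or.inl (by linarith))
    · rcases zoneB h1 h2 h3 hη w1 w3 hk hl with g | g | g
      · right
        exact case_near (by linarith) hk g
      · left
        have e : 8 / η ^ 2 * X1 ^ 2 - 2 * (8 / η ^ 2 * X2 ^ 2) + 8 / η ^ 2 * X3 ^ 2 =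
            8 / η ^ 2 * ((X1 - X3) ^ 2) / 2 := by
          have : X2 = (X1 + X3) / 2 := by linarith
          rw [this]
          ring
        have e2 : 0 ≤ 8 / η ^ 2 * ((X1 - X3) ^ 2) / 2 := by positivity
        linarith
      · left
        exact case_far hM (by linarith) hη u1 u3 u2 hk g
  · rw [h] at hk
    push_cast at hk
    left
    exact case_pos hM5 h2.1 u1 u3 u2 hk

/-! ### the sections of the region -/

/-- lower bound for the length of the section -/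
noncomputable def hh (η X : ℝ) : ℝ :=
  if X < 9 / 19 then 19 / 18 * X else if X < 1 / 2 then 1 / 2 else
    if X < 21 / 38 then (37 - 38 * X) / 36 else if X ≤ 21 / 38 + η then 0 else
      if X < 25 / 38 then (11 + 38 * X) / 72 - η else if X < 27 / 38 then 1 / 2 - η else
        if X < 29 / 38 then (45 - 38 * X) / 36 - η else
          if X < 37 / 38 then (37 - 38 * X) / 18 - η else 0

theorem reg_interval_lo {η X : ℝ} (hη : 0 < η) (hη1 : η ≤ 1 / 100) (hX0 : 0 ≤ X) (hX1 : X < 1)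
    (c3 : X ≤ 21 / 38 + η) :
    ∃ a b c d : ℝ, 0 ≤ a ∧ d ≤ 0 ∧ -1 ≤ c ∧ b ≤ 1 ∧ hh η X ≤ (b - a) + (d - c) ∧
      (∀ Y, a < Y → Y < b → Reg η X Y) ∧ (∀ Y, c < Y → Y < d → Reg η X Y) := by
  by_cases c0 : X < 9 / 19
  · refine ⟨0, 11 / 18 * X, -(4 / 9 * X), 0, le_rfl, le_rfl, by linarith, by linarith, ?_, ?_, ?_⟩
    · unfold hh; rw [if_pos c0]; linarith
    · intro Y h1 h2
      exact ⟨hX0, hX1, by linarith, by linarith, by linarith, by linarith,
        fun h => absurd h (by linarith), Or.inl ⟨by linarith, by linarith⟩⟩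
    · intro Y h1 h2
      exact ⟨hX0, hX1, by linarith, by linarith, by linarith, by linarith,
        fun h => absurd h (by linarith), Or.inl ⟨by linarith, by linarith⟩⟩
  by_cases c1 : X < 1 / 2
  · refine ⟨0, 11 / 18 * X, 11 / 18 * X - 1 / 2, 0, le_rfl, le_rfl, by linarith, by linarith,
      ?_, ?_, ?_⟩
    · unfold hh; rw [if_neg c0, if_pos c1]; linarith
    · intro Y h1 h2
      exact ⟨hX0, hX1, by linarith, by linarith, by linarith, by linarith,
        fun h => absurd h (by linarith), Or.inl ⟨by linarith, by linarith⟩⟩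
    · intro Y h1 h2
      exact ⟨hX0, hX1, by linarith, by linarith, by linarith, by linarith,
        fun h => absurd h (by linarith), Or.inl ⟨by linarith, by linarith⟩⟩
  by_cases c2 : X < 21 / 38
  · refine ⟨11 / 36 * (2 * X - 1), 11 / 18 * X, 11 / 18 * X - 1 / 2, -(2 / 9 * (2 * X - 1)),
      by linarith, by linarith, by linarith, by linarith, ?_, ?_, ?_⟩
    · unfold hh; rw [if_neg c0, if_neg c1, if_pos c2]; linarith
    · intro Y h1 h2
      exact ⟨hX0, hX1, by linarith, by linarith, by linarith, by linarith,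
        fun h => ⟨Or.inl (by linarith), by linarith, by linarith⟩,
        Or.inl ⟨by linarith, by linarith⟩⟩
    · intro Y h1 h2
      exact ⟨hX0, hX1, by linarith, by linarith, by linarith, by linarith,
        fun h => ⟨Or.inr (by linarith), by linarith, by linarith⟩,
        Or.inl ⟨by linarith, by linarith⟩⟩
  · refine ⟨0, 0, 0, 0, le_rfl, le_rfl, by linarith, by linarith, ?_, ?_, ?_⟩
    · unfold hh; rw [if_neg c0, if_neg c1, if_neg c2, if_pos c3]; linarith
    · intro Y h1 h2; linarith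
    · intro Y h1 h2; linarith

theorem reg_interval_mid {η X : ℝ} (hη : 0 < η) (hη1 : η ≤ 1 / 100) (hX0 : 0 ≤ X) (hX1 : X < 1)
    (c3 : 21 / 38 + η < X) (c5 : X < 27 / 38) :
    ∃ a b c d : ℝ, 0 ≤ a ∧ d ≤ 0 ∧ -1 ≤ c ∧ b ≤ 1 ∧ hh η X ≤ (b - a) + (d - c) ∧
      (∀ Y, a < Y → Y < b → Reg η X Y) ∧ (∀ Y, c < Y → Y < d → Reg η X Y) := by
  have g0 : ¬ X < 9 / 19 := by linarith
  have g1 : ¬ X < 1 / 2 := by linarith
  have g2 : ¬ X < 21 / 38 := by linarith
  have g3 : ¬ X ≤ 21 / 38 + η := by linarith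
  by_cases c4 : X < 25 / 38
  · refine ⟨11 / 36 * (2 * X - 1), 11 / 18 * X - η / 2, -(4 / 9 * X), (6 * X - 11) / 72 - η / 2,
      by linarith, by linarith, by linarith, by linarith, ?_, ?_, ?_⟩
    · unfold hh; rw [if_neg g0, if_neg g1, if_neg g2, if_neg g3, if_pos c4]; linarith
    · intro Y h1 h2
      have hw := ww_pos (Y := Y) (by linarith)
      exact ⟨hX0, hX1, by linarith, by linarith, by linarith, by linarith,
        fun h => ⟨Or.inl (by linarith), by linarith, by linarith⟩,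
        Or.inr ⟨by linarith, by rw [hw]; linarith⟩⟩
    · intro Y h1 h2
      have hw := ww_neg (Y := Y) (by linarith)
      exact ⟨hX0, hX1, by linarith, by linarith, by linarith, by linarith,
        fun h => ⟨Or.inr (by linarith), by linarith, by linarith⟩,
        Or.inr ⟨by linarith, by rw [hw]; linarith⟩⟩
  · refine ⟨11 / 36 * (2 * X - 1), (25 + 6 * X) / 72 - η / 2, -(4 / 9 * X),
      (6 * X - 11) / 72 - η / 2, by linarith, by linarith, by linarith, by linarith, ?_, ?_, ?_⟩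
    · unfold hh; rw [if_neg g0, if_neg g1, if_neg g2, if_neg g3, if_neg c4, if_pos c5]; linarith
    · intro Y h1 h2
      have hw := ww_pos (Y := Y) (by linarith)
      exact ⟨hX0, hX1, by linarith, by linarith, by linarith, by linarith,
        fun h => ⟨Or.inl (by linarith), by linarith, by linarith⟩,
        Or.inr ⟨by linarith, by rw [hw]; linarith⟩⟩
    · intro Y h1 h2
      have hw := ww_neg (Y := Y) (by linarith)
      exact ⟨hX0, hX1, by linarith, by linarith, by linarith, by linarith,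
        fun h => ⟨Or.inr (by linarith), by linarith, by linarith⟩,
        Or.inr ⟨by linarith, by rw [hw]; linarith⟩⟩

theorem reg_interval_hi {η X : ℝ} (hη : 0 < η) (hη1 : η ≤ 1 / 100) (hX0 : 0 ≤ X) (hX1 : X < 1)
    (c5 : 27 / 38 ≤ X) :
    ∃ a b c d : ℝ, 0 ≤ a ∧ d ≤ 0 ∧ -1 ≤ c ∧ b ≤ 1 ∧ hh η X ≤ (b - a) + (d - c) ∧
      (∀ Y, a < Y → Y < b → Reg η X Y) ∧ (∀ Y, c < Y → Y < d → Reg η X Y) := by
  have g0 : ¬ X < 9 / 19 := by linarith
  have g1 : ¬ X < 1 / 2 := by linarith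
  have g2 : ¬ X < 21 / 38 := by linarith
  have g3 : ¬ X ≤ 21 / 38 + η := by linarith
  have g4 : ¬ X < 25 / 38 := by linarith
  have g5 : ¬ X < 27 / 38 := by linarith
  by_cases c6 : X < 29 / 38
  · refine ⟨11 / 36 * (2 * X - 1), (26 - 16 * X) / 36 - η / 2, -(4 / 9 * X),
      -(2 / 9 * (2 * X - 1)) - η / 2, by linarith, by linarith, by linarith, by linarith, ?_, ?_, ?_⟩
    · unfold hh
      rw [if_neg g0, if_neg g1, if_neg g2, if_neg g3, if_neg g4, if_neg g5, if_pos c6]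
      linarith
    · intro Y h1 h2
      have hw := ww_pos (Y := Y) (by linarith)
      exact ⟨hX0, hX1, by linarith, by linarith, by linarith, by linarith,
        fun h => ⟨Or.inl (by linarith), by linarith, by linarith⟩,
        Or.inr ⟨by linarith, by rw [hw]; linarith⟩⟩
    · intro Y h1 h2
      have hw := ww_neg (Y := Y) (by linarith)
      exact ⟨hX0, hX1, by linarith, by linarith, by linarith, by linarith,
        fun h => ⟨Or.inr (by linarith), by linarith, by linarith⟩,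
        Or.inr ⟨by linarith, by rw [hw]; linarith⟩⟩
  by_cases c7 : X < 37 / 38
  · refine ⟨11 / 36 * (2 * X - 1), (26 - 16 * X) / 36 - η / 2, (22 * X - 29) / 36,
      -(2 / 9 * (2 * X - 1)) - η / 2, by linarith, by linarith, by linarith, by linarith, ?_, ?_, ?_⟩
    · unfold hh
      rw [if_neg g0, if_neg g1, if_neg g2, if_neg g3, if_neg g4, if_neg g5, if_neg c6, if_pos c7]
      linarith
    · intro Y h1 h2
      have hw := ww_pos (Y := Y) (by linarith)
      exact ⟨hX0, hX1, by linarith, by linarith, by linarith, by linarith,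
        fun h => ⟨Or.inl (by linarith), by linarith, by linarith⟩,
        Or.inr ⟨by linarith, by rw [hw]; linarith⟩⟩
    · intro Y h1 h2
      have hw := ww_neg (Y := Y) (by linarith)
      exact ⟨hX0, hX1, by linarith, by linarith, by linarith, by linarith,
        fun h => ⟨Or.inr (by linarith), by linarith, by linarith⟩,
        Or.inr ⟨by linarith, by rw [hw]; linarith⟩⟩
  · refine ⟨0, 0, 0, 0, le_rfl, le_rfl, by linarith, by linarith, ?_, ?_, ?_⟩
    · unfold hh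
      rw [if_neg g0, if_neg g1, if_neg g2, if_neg g3, if_neg g4, if_neg g5, if_neg c6, if_neg c7]
      linarith
    · intro Y h1 h2; linarith
    · intro Y h1 h2; linarith

theorem reg_interval {η X : ℝ} (hη : 0 < η) (hη1 : η ≤ 1 / 100) (hX0 : 0 ≤ X) (hX1 : X < 1) :
    ∃ a b c d : ℝ, 0 ≤ a ∧ d ≤ 0 ∧ -1 ≤ c ∧ b ≤ 1 ∧ hh η X ≤ (b - a) + (d - c) ∧
      (∀ Y, a < Y → Y < b → Reg η X Y) ∧ (∀ Y, c < Y → Y < d → Reg η X Y) := by
  rcases le_or_gt X (21 / 38 + η) with h | h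
  · exact reg_interval_lo hη hη1 hX0 hX1 h
  rcases lt_or_ge X (27 / 38) with h' | h'
  · exact reg_interval_mid hη hη1 hX0 hX1 h h'
  · exact reg_interval_hi hη hη1 hX0 hX1 h'

end Vale.Agent.P057.R2.H777
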