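import Vale.Agent.P057.H203.Count
import Vale.Agent.P057.R2.H777.Region

/-!
# P057 : counting the lattice points of the larger region
-/

set_option linter.all false

open Finset

namespace Vale.Agent.P057.R2.H777

open Vale.Agent.P057.H203 (lin_sum ceil_near two_int)

theorem quad_near3 (p t B α β : ℝ) (hp : 0 < p) (hα : |α| ≤ 3) (hβ : |β| ≤ 3) (ht0 : 0 ≤ t)
    (ht1 : t ≤ 1) (hB0 : 0 ≤ B) (hB1 : B ≤ 1) (h : |t - B| ≤ 1 / p) :
    |p * ((α * t + β / 2 * t ^ 2) - (α * B + β / 2 * B ^ 2))| ≤ 6 := by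
  have e : p * ((α * t + β / 2 * t ^ 2) - (α * B + β / 2 * B ^ 2)) =
      (p * (t - B)) * (α + β * ((t + B) / 2)) := by ring
  rw [e, abs_mul, abs_mul, abs_of_pos hp]
  have h1 : p * |t - B| ≤ 1 := by
    calc p * |t - B| ≤ p * (1 / p) := mul_le_mul_of_nonneg_left h hp.le
      _ = 1 := by field_simp
  have h2 : |α + β * ((t + B) / 2)| ≤ 6 := by
    have h3 : |(t + B) / 2| ≤ 1 := by rw [abs_le]; constructor <;> linarith
    have h4 : |β * ((t + B) / 2)| ≤ 3 * 1 := by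
      rw [abs_mul]
      exact mul_le_mul hβ h3 (abs_nonneg _) (by norm_num)
    have h5 := abs_add_le α (β * ((t + B) / 2))
    linarith
  calc p * |t - B| * |α + β * ((t + B) / 2)| ≤ 1 * 6 :=
        mul_le_mul h1 h2 (abs_nonneg _) (by norm_num)
    _ = 6 := by norm_num

theorem lin_sum_ge3 (p : ℕ) (hp : 0 < p) (α β A B : ℝ) (a b : ℕ) (hab : a ≤ b) (hbp : b ≤ p)
    (hα : |α| ≤ 3) (hβ : |β| ≤ 3) (hA0 : 0 ≤ A) (hA1 : A ≤ 1) (hB0 : 0 ≤ B) (hB1 : B ≤ 1)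
    (ha : |(a : ℝ) / p - A| ≤ 1 / p) (hb : |(b : ℝ) / p - B| ≤ 1 / p) :
    p * ((α * B + β / 2 * B ^ 2) - (α * A + β / 2 * A ^ 2)) - 14 ≤
      ∑ x ∈ Finset.Ico a b, (α + β * ((x : ℝ) / p)) := by
  rw [lin_sum p hp α β a b hab]
  have hp0 : (0 : ℝ) < p := by exact_mod_cast hp
  have hapR : (a : ℝ) ≤ p := by exact_mod_cast hab.trans hbp
  have hbpR : (b : ℝ) ≤ p := by exact_mod_cast hbp
  have habR : (a : ℝ) ≤ b := by exact_mod_cast hab
  have h1 := quad_near3 p ((b : ℝ) / p) B α β hp0 hα hβ (by positivity)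
    (by rw [div_le_one hp0]; exact hbpR) hB0 hB1 hb
  have h2 := quad_near3 p ((a : ℝ) / p) A α β hp0 hα hβ (by positivity)
    (by rw [div_le_one hp0]; exact hapR) hA0 hA1 ha
  have h3 : |β / 2 * (((b : ℝ) - a) / p)| ≤ 2 := by
    have h4 : |((b : ℝ) - a) / p| ≤ 1 := by
      rw [abs_of_nonneg (div_nonneg (by linarith) hp0.le), div_le_one hp0]
      have : (0 : ℝ) ≤ a := Nat.cast_nonneg _
      linarith
    have h5 : |β / 2| ≤ 2 := by
      rw [abs_div, abs_of_pos (by norm_num : (0 : ℝ) < 2)]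
      linarith
    rw [abs_mul]
    calc |β / 2| * |((b : ℝ) - a) / p| ≤ 2 * 1 :=
          mul_le_mul h5 h4 (abs_nonneg _) (by norm_num)
      _ = 2 := by norm_num
  rw [abs_le] at h1 h2 h3
  linarith [h1.1, h1.2, h2.1, h2.2, h3.1, h3.2]

/-- one linear piece -/
theorem piece (p : ℕ) (hp : 0 < p) (f : ℝ → ℝ) (α β A B : ℝ) (hA0 : 0 ≤ A) (hAB : A ≤ B)
    (hB1 : B ≤ 1) (hα : |α| ≤ 3) (hβ : |β| ≤ 3) (hf : ∀ t, A ≤ t → t < B → α + β * t ≤ f t) :
    p * ((α * B + β / 2 * B ^ 2) - (α * A + β / 2 * A ^ 2)) - 14 ≤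
      ∑ x ∈ Finset.Ico ⌈A * p⌉₊ ⌈B * p⌉₊, f ((x : ℝ) / p) := by
  have hp0 : (0 : ℝ) < p := by exact_mod_cast hp
  have hab : ⌈A * p⌉₊ ≤ ⌈B * p⌉₊ := Nat.ceil_mono (mul_le_mul_of_nonneg_right hAB hp0.le)
  have hbp : ⌈B * p⌉₊ ≤ p := by
    rw [Nat.ceil_le]
    calc B * p ≤ 1 * p := mul_le_mul_of_nonneg_right hB1 hp0.le
      _ = p := one_mul _
  refine (lin_sum_ge3 p hp α β A B _ _ hab hbp hα hβ hA0 (hAB.trans hB1) (hA0.trans hAB) hB1
    (ceil_near p hp A hA0) (ceil_near p hp B (hA0.trans hAB))).trans ?_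
  apply Finset.sum_le_sum
  intro x hx
  have hx := Finset.mem_Ico.1 hx
  apply hf
  · rw [le_div_iff₀ hp0]
    exact Nat.ceil_le.1 hx.1
  · rw [div_lt_iff₀ hp0]
    exact Nat.lt_ceil.1 hx.2

theorem split9 (f : ℕ → ℝ) (a1 a2 a3 a4 a5 a6 a7 a8 p : ℕ) (m2 : a1 ≤ a2) (m3 : a2 ≤ a3)
    (m4 : a3 ≤ a4) (m5 : a4 ≤ a5) (m6 : a5 ≤ a6) (m7 : a6 ≤ a7) (m8 : a7 ≤ a8) (m9 : a8 ≤ p) :
    ∑ x ∈ Finset.range p, f x = ∑ x ∈ Finset.Ico 0 a1, f x + ∑ x ∈ Finset.Ico a1 a2, f x +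
      ∑ x ∈ Finset.Ico a2 a3, f x + ∑ x ∈ Finset.Ico a3 a4, f x + ∑ x ∈ Finset.Ico a4 a5, f x +
      ∑ x ∈ Finset.Ico a5 a6, f x + ∑ x ∈ Finset.Ico a6 a7, f x + ∑ x ∈ Finset.Ico a7 a8, f x +
      ∑ x ∈ Finset.Ico a8 p, f x := by
  rw [Finset.sum_Ico_consecutive _ (Nat.zero_le _) m2,
    Finset.sum_Ico_consecutive _ (Nat.zero_le _) m3,
    Finset.sum_Ico_consecutive _ (Nat.zero_le _) m4,
    Finset.sum_Ico_consecutive _ (Nat.zero_le _) m5,
    Finset.sum_Ico_consecutive _ (Nat.zero_le _) m6,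
    Finset.sum_Ico_consecutive _ (Nat.zero_le _) m7,
    Finset.sum_Ico_consecutive _ (Nat.zero_le _) m8,
    Finset.sum_Ico_consecutive _ (Nat.zero_le _) m9, Finset.range_eq_Ico]

section
variable {η t : ℝ}

theorem hh1 (h2 : t < 9 / 19) : 0 + 19 / 18 * t ≤ hh η t := by
  unfold hh; rw [if_pos h2]; linarith

theorem hh2 (h1 : 9 / 19 ≤ t) (h2 : t < 1 / 2) : 1 / 2 + 0 * t ≤ hh η t := by
  unfold hh; rw [if_neg (by linarith), if_pos h2]; linarith

theorem hh3 (h1 : 1 / 2 ≤ t) (h2 : t < 21 / 38) : 37 / 36 + (-(19 / 18)) * t ≤ hh η t := by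
  unfold hh; rw [if_neg (by linarith), if_neg (by linarith), if_pos h2]; linarith

theorem hh4 (hη : 0 < η) (hη1 : η ≤ 1 / 100) (h1 : 21 / 38 ≤ t) (h2 : t < 21 / 38 + 2 * η) :
    0 + 0 * t ≤ hh η t := by
  unfold hh
  rw [if_neg (by linarith), if_neg (by linarith), if_neg (by linarith)]
  by_cases h : t ≤ 21 / 38 + η
  · rw [if_pos h]; linarith
  · rw [if_neg h, if_pos (by linarith)]; linarith

theorem hh5 (hη : 0 < η) (h1 : 21 / 38 + 2 * η ≤ t) (h2 : t < 25 / 38) :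
    11 / 72 - η + 19 / 36 * t ≤ hh η t := by
  unfold hh
  rw [if_neg (by linarith), if_neg (by linarith), if_neg (by linarith),
    if_neg (by linarith), if_pos h2]
  linarith

theorem hh6 (hη : 0 < η) (hη1 : η ≤ 1 / 100) (h1 : 25 / 38 ≤ t) (h2 : t < 27 / 38) :
    1 / 2 - η + 0 * t ≤ hh η t := by
  unfold hh
  rw [if_neg (by linarith), if_neg (by linarith), if_neg (by linarith),
    if_neg (by linarith), if_neg (by linarith), if_pos h2]
  linarith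

theorem hh7 (hη : 0 < η) (hη1 : η ≤ 1 / 100) (h1 : 27 / 38 ≤ t) (h2 : t < 29 / 38) :
    45 / 36 - η + (-(19 / 18)) * t ≤ hh η t := by
  unfold hh
  rw [if_neg (by linarith), if_neg (by linarith), if_neg (by linarith),
    if_neg (by linarith), if_neg (by linarith), if_neg (by linarith), if_pos h2]
  linarith

theorem hh8 (hη : 0 < η) (hη1 : η ≤ 1 / 100) (h1 : 29 / 38 ≤ t) (h2 : t < 37 / 38) :
    37 / 18 - η + (-(19 / 9)) * t ≤ hh η t := by
  unfold hh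
  rw [if_neg (by linarith), if_neg (by linarith), if_neg (by linarith),
    if_neg (by linarith), if_neg (by linarith), if_neg (by linarith), if_neg (by linarith),
    if_pos h2]
  linarith

theorem hh9 (hη : 0 < η) (hη1 : η ≤ 1 / 100) (h1 : 37 / 38 ≤ t) : 0 + 0 * t ≤ hh η t := by
  unfold hh
  rw [if_neg (by linarith), if_neg (by linarith), if_neg (by linarith),
    if_neg (by linarith), if_neg (by linarith), if_neg (by linarith), if_neg (by linarith),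
    if_neg (by linarith)]
  linarith

end

theorem area (η p : ℝ) (hη : 0 < η) (hη1 : η ≤ 1 / 100) (hp0 : 0 < p) : p * (52 / 171 - 2 * η) ≤
      p * ((0 * (9 / 19) + 19 / 18 / 2 * (9 / 19) ^ 2) - (0 * 0 + 19 / 18 / 2 * 0 ^ 2)) +
      p * ((1 / 2 * (1 / 2) + 0 / 2 * (1 / 2) ^ 2) - (1 / 2 * (9 / 19) + 0 / 2 * (9 / 19) ^ 2)) +
      p * ((37 / 36 * (21 / 38) + -(19 / 18) / 2 * (21 / 38) ^ 2) -
        (37 / 36 * (1 / 2) + -(19 / 18) / 2 * (1 / 2) ^ 2)) +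
      p * ((0 * (21 / 38 + 2 * η) + 0 / 2 * (21 / 38 + 2 * η) ^ 2) -
        (0 * (21 / 38) + 0 / 2 * (21 / 38) ^ 2)) +
      p * (((11 / 72 - η) * (25 / 38) + 19 / 36 / 2 * (25 / 38) ^ 2) -
        ((11 / 72 - η) * (21 / 38 + 2 * η) + 19 / 36 / 2 * (21 / 38 + 2 * η) ^ 2)) +
      p * (((1 / 2 - η) * (27 / 38) + 0 / 2 * (27 / 38) ^ 2) -
        ((1 / 2 - η) * (25 / 38) + 0 / 2 * (25 / 38) ^ 2)) +
      p * (((45 / 36 - η) * (29 / 38) + -(19 / 18) / 2 * (29 / 38) ^ 2) -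
        ((45 / 36 - η) * (27 / 38) + -(19 / 18) / 2 * (27 / 38) ^ 2)) +
      p * (((37 / 18 - η) * (37 / 38) + -(19 / 9) / 2 * (37 / 38) ^ 2) -
        ((37 / 18 - η) * (29 / 38) + -(19 / 9) / 2 * (29 / 38) ^ 2)) +
      p * ((0 * 1 + 0 / 2 * 1 ^ 2) - (0 * (37 / 38) + 0 / 2 * (37 / 38) ^ 2)) := by
  simp only [← mul_add]
  apply mul_le_mul_of_nonneg_left _ hp0.le
  nlinarith

theorem hh_sum (η : ℝ) (hη : 0 < η) (hη1 : η ≤ 1 / 100) (p : ℕ) (hp : 100 ≤ p) :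
    p * (52 / 171 - 2 * η) - 126 ≤ ∑ x ∈ Finset.range p, hh η ((x : ℝ) / p) := by
  have hp1 : 0 < p := by omega
  have hp0 : (0 : ℝ) < p := by exact_mod_cast hp1
  have mono : ∀ A B : ℝ, A ≤ B → ⌈A * p⌉₊ ≤ ⌈B * p⌉₊ := fun A B hAB =>
    Nat.ceil_mono (mul_le_mul_of_nonneg_right hAB hp0.le)
  have e0 : ⌈(0 : ℝ) * p⌉₊ = 0 := by simp
  have e9 : ⌈(1 : ℝ) * p⌉₊ = p := by simp
  have t1 := piece p hp1 (hh η) 0 (19 / 18) 0 (9 / 19) le_rfl (by norm_num) (by norm_num)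
    (by norm_num) (by rw [abs_le]; constructor <;> norm_num) (fun t h1 h2 => hh1 h2)
  have t2 := piece p hp1 (hh η) (1 / 2) 0 (9 / 19) (1 / 2) (by norm_num) (by norm_num)
    (by norm_num) (by rw [abs_le]; constructor <;> norm_num) (by norm_num)
    (fun t h1 h2 => hh2 h1 h2)
  have t3 := piece p hp1 (hh η) (37 / 36) (-(19 / 18)) (1 / 2) (21 / 38) (by norm_num) (by norm_num)
    (by norm_num) (by rw [abs_le]; constructor <;> norm_num)
    (by rw [abs_le]; constructor <;> norm_num) (fun t h1 h2 => hh3 h1 h2)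
  have t4 := piece p hp1 (hh η) 0 0 (21 / 38) (21 / 38 + 2 * η) (by norm_num) (by linarith)
    (by linarith) (by norm_num) (by norm_num) (fun t h1 h2 => hh4 hη hη1 h1 h2)
  have t5 := piece p hp1 (hh η) (11 / 72 - η) (19 / 36) (21 / 38 + 2 * η) (25 / 38) (by linarith)
    (by linarith) (by norm_num) (by rw [abs_le]; constructor <;> linarith)
    (by rw [abs_le]; constructor <;> norm_num) (fun t h1 h2 => hh5 hη h1 h2)
  have t6 := piece p hp1 (hh η) (1 / 2 - η) 0 (25 / 38) (27 / 38) (by norm_num)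
    (by norm_num) (by norm_num) (by rw [abs_le]; constructor <;> linarith)
    (by norm_num) (fun t h1 h2 => hh6 hη hη1 h1 h2)
  have t7 := piece p hp1 (hh η) (45 / 36 - η) (-(19 / 18)) (27 / 38) (29 / 38) (by norm_num)
    (by norm_num) (by norm_num) (by rw [abs_le]; constructor <;> linarith)
    (by rw [abs_le]; constructor <;> norm_num) (fun t h1 h2 => hh7 hη hη1 h1 h2)
  have t8 := piece p hp1 (hh η) (37 / 18 - η) (-(19 / 9)) (29 / 38) (37 / 38) (by norm_num)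
    (by norm_num) (by norm_num) (by rw [abs_le]; constructor <;> linarith)
    (by rw [abs_le]; constructor <;> norm_num) (fun t h1 h2 => hh8 hη hη1 h1 h2)
  have t9 := piece p hp1 (hh η) 0 0 (37 / 38) 1 (by norm_num)
    (by norm_num) (by norm_num) (by norm_num) (by norm_num) (fun t h1 h2 => hh9 hη hη1 h1)
  have m2 := mono (9 / 19) (1 / 2) (by norm_num)
  have m3 := mono (1 / 2) (21 / 38) (by norm_num)
  have m4 := mono (21 / 38) (21 / 38 + 2 * η) (by linarith)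
  have m5 := mono (21 / 38 + 2 * η) (25 / 38) (by linarith)
  have m6 := mono (25 / 38) (27 / 38) (by norm_num)
  have m7 := mono (27 / 38) (29 / 38) (by norm_num)
  have m8 := mono (29 / 38) (37 / 38) (by norm_num)
  have m9 := mono (37 / 38) 1 (by norm_num)
  rw [e0] at t1
  rw [e9] at t9 m9
  rw [split9 (fun x : ℕ => hh η ((x : ℝ) / p)) _ _ _ _ _ _ _ _ p m2 m3 m4 m5 m6 m7 m8 m9]
  have key := area η p hη hη1 hp0
  linarith only [t1, t2, t3, t4, t5, t6, t7, t8, t9, key]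

end Vale.Agent.P057.R2.H777
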